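import Vale.Agent.P159.MS.Defs

/-!
Truncated logarithmic profiles on the square lattice.
-/

open Real Finset

namespace Vale.Agent.P159.MS

open Vale.Agent.P159

lemma arctan_step {a c : ℝ} (ha : 0 ≤ a) (hac : a ≤ c) :
    (c - a) / (1 + c ^ 2) ≤ Real.arctan c - Real.arctan a := by
  have h := (convex_Icc a c).mul_sub_le_image_sub_of_le_deriv (f := Real.arctan)
    Real.continuous_arctan.continuousOn Real.differentiable_arctan.differentiableOn
    (C := 1 / (1 + c ^ 2)) (fun t ht => ?_) a (Set.left_mem_Icc.2 hac) c (Set.right_mem_Icc.2 hac) hac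
  · rwa [one_div_mul_eq_div] at h
  · rw [interior_Icc] at ht
    rw [(Real.hasDerivAt_arctan t).deriv]
    exact one_div_le_one_div_of_le (by positivity) (by nlinarith [ht.1, ht.2])

lemma sum_Icc_succ (f : ℤ → ℝ) (N : ℕ) :
    ∑ j ∈ Icc (-((N + 1 : ℕ) : ℤ)) ((N + 1 : ℕ) : ℤ), f j =
      (∑ j ∈ Icc (-(N : ℤ)) N, f j) + f (N + 1) + f (-(N + 1)) := by
  rw [show Icc (-((N + 1 : ℕ) : ℤ)) ((N + 1 : ℕ) : ℤ) =
    insert ((N : ℤ) + 1) (insert (-((N : ℤ) + 1)) (Icc (-(N : ℤ)) N)) by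
      ext j; simp only [mem_Icc, mem_insert]; push_cast; omega]
  rw [sum_insert (by simp only [mem_insert, mem_Icc]; omega),
    sum_insert (by simp only [mem_Icc]; omega)]
  ring

/-- One column. -/
lemma sum_col_le {A : ℝ} (hA : 0 < A) (N : ℕ) :
    ∑ j ∈ Icc (-(N : ℤ)) N, 1 / (A + (j : ℝ) ^ 2) ≤ Real.pi / √A + 1 / A := by
  have hs : 0 < √A := Real.sqrt_pos.2 hA
  have key : ∀ N : ℕ, ∑ j ∈ Icc (-(N : ℤ)) N, 1 / (A + (j : ℝ) ^ 2) ≤
      1 / A + 2 * Real.arctan (N / √A) / √A := by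
    intro N
    induction N with
    | zero => simp
    | succ N ih =>
      rw [sum_Icc_succ]
      push_cast
      have h := arctan_step (a := (N : ℝ) / √A) (c := ((N : ℝ) + 1) / √A) (by positivity)
        (div_le_div_of_nonneg_right (by linarith) hs.le)
      have e : (((N : ℝ) + 1) / √A - N / √A) / (1 + (((N : ℝ) + 1) / √A) ^ 2) =
          √A * (1 / (A + ((N : ℝ) + 1) ^ 2)) := by
        rw [div_pow, Real.sq_sqrt hA.le]
        field_simp
        rw [Real.sq_sqrt hA.le]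
        ring
      rw [e] at h
      have h' := div_le_div_of_nonneg_right h hs.le
      rw [mul_div_cancel_left₀ _ hs.ne', sub_div] at h'
      have e2 : (-(N + 1) : ℝ) ^ 2 = ((N : ℝ) + 1) ^ 2 := by ring
      simp only [e2, mul_div_assoc] at ih ⊢
      linarith
  refine (key N).trans ?_
  have := Real.arctan_lt_pi_div_two ((N : ℝ) / √A)
  have := div_le_div_of_nonneg_right (show 2 * Real.arctan ((N : ℝ) / √A) ≤ Real.pi by linarith) hs.le
  linarith

/-- The sum over a square. -/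
lemma sum_square_le {M : ℝ} (hM : 1 ≤ M) (N : ℕ) :
    ∑ w ∈ Icc (-(N : ℤ)) N ×ˢ Icc (-(N : ℤ)) N, 1 / ((w.1 : ℝ) ^ 2 + (w.2 : ℝ) ^ 2 + M ^ 2) ≤
      2 * Real.pi * Real.log N + 20 := by
  have hM0 : 0 < M := by linarith
  rw [Finset.sum_product]
  refine (Finset.sum_le_sum (g := fun i : ℤ => Real.pi / √((i : ℝ) ^ 2 + M ^ 2) +
    1 / (M ^ 2 + (i : ℝ) ^ 2)) fun i _ => ?_).trans ?_
  · have h := sum_col_le (A := (i : ℝ) ^ 2 + M ^ 2) (by positivity) N
    rw [add_comm (M ^ 2)]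
    refine le_trans (le_of_eq (Finset.sum_congr rfl fun j _ => ?_)) h
    ring
  rw [Finset.sum_add_distrib]
  have h2 := sum_col_le (A := M ^ 2) (by positivity) N
  rw [Real.sqrt_sq hM0.le] at h2
  have h1 : ∀ N : ℕ, ∑ i ∈ Icc (-(N : ℤ)) N, Real.pi / √((i : ℝ) ^ 2 + M ^ 2) ≤
      Real.pi + 2 * Real.pi * ((harmonic N : ℚ) : ℝ) := by
    intro N
    induction N with
    | zero =>
      simp only [CharP.cast_eq_zero, neg_zero, Icc_self, sum_singleton, Int.cast_zero, ne_eq,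
        OfNat.ofNat_ne_zero, not_false_eq_true, zero_pow, zero_add, Real.sqrt_sq hM0.le,
        harmonic_zero, Rat.cast_zero, mul_zero, add_zero]
      exact div_le_self Real.pi_pos.le hM
    | succ N ih =>
      rw [sum_Icc_succ, harmonic_succ]
      push_cast
      have hle : Real.pi / √(((N : ℝ) + 1) ^ 2 + M ^ 2) ≤ Real.pi * ((N : ℝ) + 1)⁻¹ := by
        rw [div_eq_mul_inv]
        refine mul_le_mul_of_nonneg_left (inv_anti₀ (by positivity) ?_) Real.pi_pos.le
        exact Real.le_sqrt_of_sq_le (by nlinarith)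
      have e : (-((N : ℝ) + 1)) ^ 2 = ((N : ℝ) + 1) ^ 2 := by ring
      simp only [e] at ih ⊢
      linarith
  have hh := mul_le_mul_of_nonneg_left (harmonic_le_one_add_log N)
    (show 0 ≤ 2 * Real.pi by positivity)
  have : Real.pi / M ≤ Real.pi := div_le_self Real.pi_pos.le hM
  have : 1 / M ^ 2 ≤ 1 := div_le_self zero_le_one (one_le_pow₀ hM)
  linarith [h1 N, Real.pi_lt_d2]

/-- The squared distance to the origin, shifted. -/
noncomputable def den (M : ℝ) (w : Site) : ℝ := (w.1 : ℝ) ^ 2 + (w.2 : ℝ) ^ 2 + M ^ 2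

lemma den_pos {M : ℝ} (hM : 0 < M) (w : Site) : 0 < den M w := by unfold den; positivity

/-- The truncated logarithmic profile of radius `ρ`. -/
noncomputable def prof0 (M ρ : ℝ) (w : Site) : ℝ :=
  max 0 (Real.log ρ - Real.log (den M w) / 2)

lemma prof0_eq_zero {M ρ : ℝ} (hρ : 0 < ρ) {w : Site} (h : ρ ^ 2 ≤ den M w) : prof0 M ρ w = 0 := by
  refine max_eq_left ?_
  have := Real.log_le_log (by positivity) h
  rw [Real.log_pow] at this
  push_cast at this
  linarith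

lemma abs_log_sub_le {p q l : ℝ} (hl : 0 < l) (hp : l ≤ p) (hq : l ≤ q) :
    |Real.log q - Real.log p| ≤ |q - p| / l := by
  have key : ∀ p q : ℝ, l ≤ p → l ≤ q → Real.log q - Real.log p ≤ |q - p| / l := by
    intro p q hp hq
    have hp0 : 0 < p := lt_of_lt_of_le hl hp
    have hq0 : 0 < q := lt_of_lt_of_le hl hq
    rw [← Real.log_div hq0.ne' hp0.ne']
    refine (Real.log_le_sub_one_of_pos (div_pos hq0 hp0)).trans ?_
    rw [div_sub_one hp0.ne']
    exact (div_le_div_of_nonneg_right (le_abs_self _) hp0.le).trans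
      (div_le_div_of_nonneg_left (abs_nonneg _) hl hp)
  refine abs_le.2 ⟨?_, key p q hp hq⟩
  have := key q p hq hp
  rw [abs_sub_comm] at this
  linarith

/-- The two steps from a vertex. -/
lemma prof0_steps {M : ℝ} (hM : 2 ≤ M) (ρ : ℝ) (w : Site) :
    (prof0 M ρ (w + (1, 0)) - prof0 M ρ w) ^ 2 + (prof0 M ρ (w + (0, 1)) - prof0 M ρ w) ^ 2 ≤
      (1 + 2 / M) / (1 - 1 / M) ^ 2 * (1 / den M w) := by
  obtain ⟨i, j⟩ := w
  set D := den M (i, j) with hD
  have hD0 : 0 < D := den_pos (by linarith) _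
  have hq : 0 < 1 - 1 / M := by
    rw [sub_pos, div_lt_one (by linarith)]; linarith
  have hl : 0 < D * (1 - 1 / M) := mul_pos hD0 hq
  have hx : ∀ t : ℝ, t ^ 2 + M ^ 2 ≤ D → 2 * |t| ≤ D / M := by
    intro t ht
    rw [le_div_iff₀ (by linarith)]
    nlinarith [sq_nonneg (|t| - M), sq_abs t]
  have step : ∀ (D' t : ℝ) (w' : Site), den M w' = D' → D' = D + (2 * t + 1) → t ^ 2 + M ^ 2 ≤ D →
      (prof0 M ρ w' - prof0 M ρ (i, j)) ^ 2 ≤
        (4 * t ^ 2 + 4 * |t| + 1) / (4 * (D * (1 - 1 / M)) ^ 2) := by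
    intro D' t w' hw' hD' ht
    have h2 := hx t ht
    have hl1 : D * (1 - 1 / M) ≤ D' := by
      rw [hD', mul_sub, mul_one, mul_one_div]
      linarith [neg_abs_le t]
    have hl2 : D * (1 - 1 / M) ≤ D := mul_le_of_le_one_right hD0.le (by
      have : 0 ≤ 1 / M := by positivity
      linarith)
    have h3 := abs_log_sub_le hl hl2 hl1
    have h4 : |prof0 M ρ w' - prof0 M ρ (i, j)| ≤ |Real.log D' - Real.log D| / 2 := by
      simp only [prof0, hw', ← hD]
      refine (abs_max_sub_max_le_max _ _ _ _).trans (max_le (by simp; positivity) (le_of_eq ?_))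
      rw [show Real.log ρ - Real.log D' / 2 - (Real.log ρ - Real.log D / 2) =
        -((Real.log D' - Real.log D) / 2) by ring, abs_neg, abs_div, abs_two]
    have h5 : |D' - D| ≤ 2 * |t| + 1 := by
      rw [hD', add_sub_cancel_left]
      refine (abs_add_le _ _).trans (le_of_eq ?_)
      rw [abs_mul, abs_two, abs_one]
    have h6 : |prof0 M ρ w' - prof0 M ρ (i, j)| ≤ (2 * |t| + 1) / (2 * (D * (1 - 1 / M))) := by
      refine h4.trans ((div_le_div_of_nonneg_right (h3.trans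
        (div_le_div_of_nonneg_right h5 hl.le)) two_pos.le).trans (le_of_eq ?_))
      rw [div_div, mul_comm _ (2 : ℝ)]
    rw [← sq_abs]
    refine (pow_le_pow_left₀ (abs_nonneg _) h6 2).trans (le_of_eq ?_)
    rw [div_pow, ← sq_abs t]
    ring
  have b1 := step (den M ((i, j) + (1, 0))) i _ rfl (by simp [hD, den]; ring)
    (by simp only [hD, den]; nlinarith [sq_nonneg (j : ℝ)])
  have b2 := step (den M ((i, j) + (0, 1))) j _ rfl (by simp [hD, den]; ring)
    (by simp only [hD, den]; nlinarith [sq_nonneg (i : ℝ)])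
  refine (add_le_add b1 b2).trans ?_
  rw [← add_div]
  have hi := hx i (by simp only [hD, den]; nlinarith [sq_nonneg (j : ℝ)])
  have hj := hx j (by simp only [hD, den]; nlinarith [sq_nonneg (i : ℝ)])
  have h1M : 1 ≤ D / M := by
    rw [le_div_iff₀ (by linarith)]
    simp only [hD, den]
    nlinarith [sq_nonneg (i : ℝ), sq_nonneg (j : ℝ)]
  have hnum : 4 * (i : ℝ) ^ 2 + 4 * |(i : ℝ)| + 1 + (4 * (j : ℝ) ^ 2 + 4 * |(j : ℝ)| + 1) ≤
      4 * D * (1 + 2 / M) := by
    have hlow : (i : ℝ) ^ 2 + (j : ℝ) ^ 2 ≤ D := by simp only [hD, den]; nlinarith [sq_nonneg M]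
    rw [mul_add, mul_one, show 4 * D * (2 / M) = 8 * (D / M) by ring]
    linarith
  refine (div_le_div_of_nonneg_right hnum (by positivity)).trans (le_of_eq ?_)
  have : M ≠ 0 := by linarith
  have : M - 1 ≠ 0 := by linarith
  field_simp

lemma mem_square_of_den_lt {M ρ : ℝ} (hρ : 0 < ρ) {N : ℕ} (hN : ρ + 1 ≤ N) {w e : Site}
    (he : e = (0, 0) ∨ e = (1, 0) ∨ e = (0, 1)) (h : den M (w + e) < ρ ^ 2) :
    w ∈ Icc (-(N : ℤ)) N ×ˢ Icc (-(N : ℤ)) N := by
  have key : ∀ t : ℤ, ∀ s : ℤ, |s| ≤ 1 → ((t + s : ℤ) : ℝ) ^ 2 < ρ ^ 2 → t ∈ Icc (-(N : ℤ)) N := by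
    intro t s hs ht
    have h1 := abs_lt_of_sq_lt_sq ht hρ.le
    have h2 : ((|t + s| : ℤ) : ℝ) + 1 < (N : ℝ) + 1 := by
      push_cast at h1 ⊢
      linarith
    have h3 : |t + s| < (N : ℤ) := by exact_mod_cast (by linarith : ((|t + s| : ℤ) : ℝ) < N)
    rw [abs_le] at hs
    rw [abs_lt] at h3
    rw [mem_Icc]
    omega
  unfold den at h
  simp only [Prod.fst_add, Prod.snd_add] at h
  refine mem_product.2 ⟨key _ e.1 ?_ ?_, key _ e.2 ?_ ?_⟩
  · rcases he with rfl | rfl | rfl <;> simp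
  · nlinarith [sq_nonneg ((w.2 + e.2 : ℤ) : ℝ), sq_nonneg M]
  · rcases he with rfl | rfl | rfl <;> simp
  · nlinarith [sq_nonneg ((w.1 + e.1 : ℤ) : ℝ), sq_nonneg M]

end Vale.Agent.P159.MS
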