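import Vale.Agent.P159.MS.Energy
import Vale.Agent.P159.MS.Profile
import Vale.Agent.P159.Lattice

/-!
The renormalised McBryan-Spencer bound on the square lattice.
-/

open MeasureTheory Real Finset Filter
open scoped Topology

namespace Vale.Agent.P159.MS

open Vale.Agent.P159

open scoped Classical

/-- The bonds of a box, as pairs. -/
noncomputable def boxB (R : ℕ) : Finset (Box R × Box R) := univ.image (ends R)

lemma ends_injective (R : ℕ) : Function.Injective (ends R) := by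
  rintro ⟨⟨u, d⟩, hu⟩ ⟨⟨v, d'⟩, hv⟩ h
  simp only [ends, Prod.mk.injEq] at h
  obtain ⟨rfl, h2⟩ := h
  have h3 := congrArg Subtype.val h2
  simp only [add_right_inj] at h3
  obtain rfl := step_inj h3
  rfl

lemma mem_boxB {R : ℕ} {e : Box R × Box R} (he : e ∈ boxB R) :
    (e.2 : Site) = (e.1 : Site) + (1, 0) ∨ (e.2 : Site) = (e.1 : Site) + (0, 1) := by
  simp only [boxB, mem_image, mem_univ, true_and] at he
  obtain ⟨⟨⟨u, d⟩, hu⟩, rfl⟩ := he
  fin_cases d
  · exact Or.inl (by simp [ends, step])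
  · exact Or.inr (by simp [ends, step])

lemma boxB_ne {R : ℕ} {e : Box R × Box R} (he : e ∈ boxB R) : e.1 ≠ e.2 := by
  intro h
  rcases mem_boxB he with h' | h' <;> rw [h] at h' <;> simp [Prod.ext_iff] at h'

lemma energy_boxB (R : ℕ) (J : Box R × Box R → ℝ) (θ : Box R → Ang) :
    energy (ends R) (fun i => J (ends R i)) θ = ∑ e ∈ boxB R, J e * cs (θ e.1 - θ e.2) := by
  rw [boxB, sum_image (ends_injective R).injOn, energy]
  exact sum_congr rfl fun i _ => by rw [dot_de]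

lemma dot_dl {R : ℕ} (θ : Box R → Ang) (u v : Box R) : dot (dl u - dl v) θ = θ u - θ v := dot_de (u, v) θ

lemma mean_eq_G {R : ℕ} (J : Box R × Box R → ℝ) (u v : Box R) :
    ∫ θ, cs (θ u - θ v) * cw (boxB R) J θ ∂law (Box R) =
      G (ends R) (fun i => J (ends R i)) u v * ∫ θ, cw (boxB R) J θ ∂law (Box R) := by
  have e0 : Z (ends R) (fun i => J (ends R i)) 0 = ∫ θ, cw (boxB R) J θ ∂law (Box R) := by
    simp only [Z, energy_boxB, dot_zero, cs_zero, mul_one, cw]
  rw [G, e0, div_mul_cancel₀ _ (integral_cw_pos _ _).ne', Z]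
  refine integral_congr_ae (Eventually.of_forall fun θ => ?_)
  simp only [energy_boxB, dot_dl, cw]
  ring

lemma corrBox_eq_xy {R : ℕ} {b : ℝ} {x y : Site} (hx : x ∈ boxSet R) (hy : y ∈ boxSet R) :
    corrBox R b x y = xyCorr (boxB R) b ⟨x, hx⟩ ⟨y, hy⟩ := by
  have h := mean_eq_G (R := R) (fun _ => b) ⟨x, hx⟩ ⟨y, hy⟩
  have hw : ∀ θ, xyWeight (boxB R) b θ = cw (boxB R) (fun _ => b) θ := fun θ => by
    simp [xyWeight, cw, mul_sum]
  rw [corrBox_eq hx hy, Gb, xyCorr]
  simp only [hw]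
  rw [h, mul_div_cancel_right₀ _ (integral_cw_pos _ _).ne']

/-- The nearest neighbour correlation bounds every bond of every box. -/
lemma mean_le_C {R : ℕ} {c : ℝ} (hc : 0 ≤ c) (J : Box R × Box R → ℝ)
    (hJ : ∀ e ∈ boxB R, 0 ≤ J e ∧ J e ≤ c) {e : Box R × Box R} (he : e ∈ boxB R) :
    ∫ θ, cs (θ e.1 - θ e.2) * cw (boxB R) J θ ∂law (Box R) ≤
      C c 1 * ∫ θ, cw (boxB R) J θ ∂law (Box R) := by
  rw [mean_eq_G]
  refine mul_le_mul_of_nonneg_right ?_ (integral_cw_pos _ _).le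
  have hi : ∀ i, ends R i ∈ boxB R := fun i => mem_image_of_mem _ (mem_univ i)
  refine ((G_mono (ends R) (J' := fun _ => c) (fun i => (hJ _ (hi i)).1)
    (fun i => (hJ _ (hi i)).2) e.1 e.2).trans ?_)
  change Gb R c ⟨(e.1 : Site), e.1.2⟩ ⟨(e.2 : Site), e.2.2⟩ ≤ _
  rw [← corrBox_eq]
  refine (corrBox_le_Cinf hc R _ _).trans ?_
  rw [Cinf_sub hc, C_eq hc]
  rcases mem_boxB he with h | h <;> rw [h, add_sub_cancel_left]
  · exact le_rfl
  · rw [← Cinf_swap hc]
    exact le_rfl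

lemma degree_le (R : ℕ) (u : Box R) :
    ((boxB R).filter (fun e => e.1 = u ∨ e.2 = u)).card ≤ 4 := by
  refine (card_le_card_of_injOn
    (fun e : Box R × Box R => ((e.1 : Site) - (u : Site), (e.2 : Site) - (u : Site)))
    (t := {((0, 0), (1, 0)), ((0, 0), (0, 1)), ((-1, 0), (0, 0)), ((0, -1), (0, 0))})
    ?_ ?_).trans card_le_four
  · intro e he
    simp only [coe_filter, Set.mem_ofPred_eq] at he
    simp only [coe_insert, coe_singleton, Set.mem_insert_iff, Set.mem_singleton_iff, Prod.ext_iff,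
      Prod.fst_sub, Prod.snd_sub]
    rcases mem_boxB he.1 with h | h <;> rcases he.2 with h' | h' <;>
      simp only [← h', h, Prod.fst_add, Prod.snd_add] <;> omega
  · intro e _ e' _ h
    simp only [Prod.mk.injEq, sub_left_inj] at h
    exact Prod.ext (Subtype.ext h.1) (Subtype.ext h.2)

/-- The nearest neighbour correlation is at most that of one angle in a field. -/
theorem C_one_le_siteMag {c : ℝ} (hc : 0 ≤ c) : C c 1 ≤ siteMag (4 * c) := by
  rw [C_eq hc]
  refine ciSup_le fun R => ?_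
  by_cases h : (0 : Site) ∈ boxSet R ∧ (((1 : ℕ) : ℤ), (0 : ℤ)) ∈ boxSet R
  · rw [corrBox_eq_xy h.1 h.2, xyCorr]
    have hw : ∀ θ, xyWeight (boxB R) c θ = cw (boxB R) (fun _ => c) θ := fun θ => by
      simp [xyWeight, cw, mul_sum]
    simp only [hw]
    rw [div_le_iff₀ (integral_cw_pos _ _)]
    refine edge_mean_le (boxB R) (fun _ _ => hc) (fun h' => ?_) (fun e he => boxB_ne he) ?_
    · simp [Subtype.ext_iff, Prod.ext_iff] at h'
    · refine (sum_le_card_nsmul _ _ c fun _ _ => le_rfl).trans ?_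
      rw [nsmul_eq_mul]
      exact mul_le_mul_of_nonneg_right (by exact_mod_cast degree_le R _) hc
  · rw [corrBox_zero h]
    exact siteMag_nonneg (by linarith)

lemma prof0_sum_le {M ρ : ℝ} (hM : 2 ≤ M) (hρ : 0 < ρ) {N : ℕ} (hN : ρ + 1 ≤ N) (R : ℕ)
    (z : Site) :
    ∑ e ∈ boxB R, (prof0 M ρ ((e.2 : Site) - z) - prof0 M ρ ((e.1 : Site) - z)) ^ 2 ≤
      (1 + 2 / M) / (1 - 1 / M) ^ 2 * (2 * Real.pi * Real.log N + 20) := by
  set f : Site × Site → ℝ := fun q => (prof0 M ρ (q.1 + q.2) - prof0 M ρ q.1) ^ 2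
  set ψ : Box R × Box R → Site × Site := fun e => ((e.1 : Site) - z, (e.2 : Site) - (e.1 : Site))
  set sq := Icc (-(N : ℤ)) N ×ˢ Icc (-(N : ℤ)) N with hsq
  have hψ : Set.InjOn ψ (boxB R : Set (Box R × Box R)) := by
    intro e _ e' _ h
    simp only [ψ, Prod.mk.injEq, sub_left_inj] at h
    have h1 : e.1 = e'.1 := Subtype.ext h.1
    rw [h1, sub_left_inj] at h
    exact Prod.ext h1 (Subtype.ext h.2)
  have e1 : ∀ e ∈ boxB R, (prof0 M ρ ((e.2 : Site) - z) - prof0 M ρ ((e.1 : Site) - z)) ^ 2 =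
      f (ψ e) := fun e _ => by
    simp only [f, ψ]
    rw [show (e.1 : Site) - z + ((e.2 : Site) - (e.1 : Site)) = (e.2 : Site) - z by abel]
  rw [sum_congr rfl e1, ← sum_image hψ]
  have hsub : ∀ q ∈ (boxB R).image ψ,
      q ∉ sq ×ˢ ({(1, 0), (0, 1)} : Finset Site) → f q = 0 := by
    intro q hq hnot
    obtain ⟨e, he, rfl⟩ := mem_image.1 hq
    have hd : (e.2 : Site) - (e.1 : Site) = (1, 0) ∨ (e.2 : Site) - (e.1 : Site) = (0, 1) := by
      rcases mem_boxB he with h | h <;> rw [h, add_sub_cancel_left]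
      · exact Or.inl rfl
      · exact Or.inr rfl
    by_contra hne
    apply hnot
    refine mem_product.2 ⟨?_, by simpa [ψ] using hd⟩
    by_contra hout
    refine hne ?_
    have z1 : prof0 M ρ ((ψ e).1 + (ψ e).2) = 0 := prof0_eq_zero hρ (not_lt.1 fun h =>
      hout (mem_square_of_den_lt hρ hN (Or.inr hd) h))
    have z0 : prof0 M ρ ((ψ e).1) = 0 := prof0_eq_zero hρ (not_lt.1 fun h =>
      hout (mem_square_of_den_lt hρ hN (e := (0, 0)) (Or.inl rfl)
        (show den M ((ψ e).1 + (0, 0)) < ρ ^ 2 by rwa [Prod.mk_zero_zero, add_zero])))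
    simp only [f, z0, z1, sub_self, ne_eq, OfNat.ofNat_ne_zero, not_false_eq_true, zero_pow]
  calc ∑ q ∈ (boxB R).image ψ, f q
      = ∑ q ∈ (boxB R).image ψ ∩ (sq ×ˢ ({(1, 0), (0, 1)} : Finset Site)), f q :=
        (sum_subset inter_subset_left fun q hq hq' => hsub q hq fun h =>
          hq' (mem_inter.2 ⟨hq, h⟩)).symm
    _ ≤ ∑ q ∈ sq ×ˢ ({(1, 0), (0, 1)} : Finset Site), f q :=
        sum_le_sum_of_subset_of_nonneg inter_subset_right fun q _ _ => sq_nonneg _
    _ = ∑ w ∈ sq, (f (w, (1, 0)) + f (w, (0, 1))) := by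
        rw [sum_product]
        exact sum_congr rfl fun w _ => sum_pair (by simp)
    _ ≤ ∑ w ∈ sq, (1 + 2 / M) / (1 - 1 / M) ^ 2 * (1 / den M w) :=
        sum_le_sum fun w _ => prof0_steps hM ρ w
    _ ≤ _ := by
        rw [← mul_sum]
        exact mul_le_mul_of_nonneg_left (sum_square_le (by linarith) N) (by positivity)

lemma dist2_sq (u v : Site) : dist2 u v ^ 2 = ((u.1 : ℝ) - v.1) ^ 2 + ((u.2 : ℝ) - v.2) ^ 2 :=
  Real.sq_sqrt (by positivity)

/-- The bound at a fixed rotation and smoothing. -/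
theorem corr_le_of_params {b α M : ℝ} (hb : 0 ≤ b) (hα : 0 ≤ α) (hM : 2 ≤ M) {δ κ : ℝ}
    (hκ : κ = (1 + 2 / M) / (1 - 1 / M) ^ 2) (hδ : δ = α ^ 2 * κ / M ^ 2) (R : ℕ) {x y : Site}
    (hxy : 3 ≤ dist2 x y) :
    |corrBox R b x y| ≤ Real.exp (-(2 * α * (Real.log (dist2 x y) - Real.log (4 * M))) +
      C (b * Real.exp (δ / 2)) 1 * (b * Real.exp (δ / 2) / 2) *
        (2 * α ^ 2 * κ * (2 * Real.pi * Real.log (dist2 x y) + 20))) := by
  by_cases h : x ∈ boxSet R ∧ y ∈ boxSet R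
  swap
  · rw [corrBox_zero h, abs_zero]; exact (Real.exp_pos _).le
  have hM0 : 0 < M := by linarith
  set r := dist2 x y with hr
  set ρ := r / 4 with hρdef
  have hρ : 0 < ρ := by positivity
  set N := ⌈ρ⌉₊ + 1 with hN
  have hNρ : ρ + 1 ≤ (N : ℝ) := by
    push_cast [hN]; linarith [Nat.le_ceil ρ]
  have hNr : (N : ℝ) ≤ r := by
    push_cast [hN]; linarith [Nat.ceil_lt_add_one hρ.le]
  set p : Site → Site → ℝ := fun z v => prof0 M ρ (v - z) with hp
  set a : Box R → ℝ := fun v => α * (p x v - p y v) with ha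
  have hκ0 : 0 ≤ κ := by rw [hκ]; positivity
  have hc : 0 ≤ b * Real.exp (δ / 2) := by positivity
  have hC0 : 0 ≤ C (b * Real.exp (δ / 2)) 1 := by rw [C_eq hc]; exact Cinf_nonneg hc _ _
  -- the two profiles do not share a bond
  have hdisj : ∀ e ∈ boxB R,
      p x e.2 - p x e.1 = 0 ∨ p y e.2 - p y e.1 = 0 := by
    intro e he
    by_contra hne
    rw [not_or] at hne
    have near : ∀ z, p z e.2 - p z e.1 ≠ 0 →
        ∃ w, (w = (e.1 : Site) ∨ w = (e.2 : Site)) ∧ den M (w - z) < ρ ^ 2 := by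
      intro z hz
      by_contra hno
      push Not at hno
      refine hz ?_
      simp only [hp]
      rw [prof0_eq_zero hρ (hno _ (Or.inl rfl)), prof0_eq_zero hρ (hno _ (Or.inr rfl)), sub_self]
    obtain ⟨w, hw, hwx⟩ := near x hne.1
    obtain ⟨v, hv, hvy⟩ := near y hne.2
    have hstep : ((v.1 : ℝ) - w.1) ^ 2 + ((v.2 : ℝ) - w.2) ^ 2 ≤ 1 := by
      rcases mem_boxB he with h' | h' <;> rcases hw with rfl | rfl <;> rcases hv with rfl | rfl <;>
        simp [h']
    have hd := dist2_sq x y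
    rw [← hr] at hd
    simp only [den, Prod.fst_sub, Prod.snd_sub, Int.cast_sub] at hwx hvy
    nlinarith [sq_nonneg (((w.1 : ℝ) - x.1) - ((v.1 : ℝ) - w.1)),
      sq_nonneg (((w.1 : ℝ) - x.1) + ((v.1 : ℝ) - y.1)),
      sq_nonneg (((v.1 : ℝ) - w.1) + ((v.1 : ℝ) - y.1)),
      sq_nonneg (((w.2 : ℝ) - x.2) - ((v.2 : ℝ) - w.2)),
      sq_nonneg (((w.2 : ℝ) - x.2) + ((v.2 : ℝ) - y.2)),
      sq_nonneg (((v.2 : ℝ) - w.2) + ((v.2 : ℝ) - y.2)), sq_nonneg M]
  have hsq : ∀ e ∈ boxB R, (a e.1 - a e.2) ^ 2 =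
      α ^ 2 * ((p x e.2 - p x e.1) ^ 2 + (p y e.2 - p y e.1) ^ 2) := by
    intro e he
    simp only [ha]
    rcases hdisj e he with h' | h' <;> rw [sub_eq_zero] at h' <;> rw [h'] <;> ring
  have hgrad : ∀ e ∈ boxB R, (a e.1 - a e.2) ^ 2 ≤ δ := by
    intro e he
    have one : ∀ z : Site, (p z e.2 - p z e.1) ^ 2 ≤ κ * (1 / M ^ 2) := by
      intro z
      have h2 := prof0_steps hM ρ ((e.1 : Site) - z)
      have h3 : 1 / den M ((e.1 : Site) - z) ≤ 1 / M ^ 2 :=
        one_div_le_one_div_of_le (by positivity) (le_add_of_nonneg_left (by positivity))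
      rw [← hκ] at h2
      have h4 := h2.trans (mul_le_mul_of_nonneg_left h3 hκ0)
      simp only [hp]
      rcases mem_boxB he with h' | h' <;>
        rw [h', add_sub_right_comm] <;>
        linarith [sq_nonneg (prof0 M ρ ((e.1 : Site) - z + (0, 1)) - prof0 M ρ ((e.1 : Site) - z)),
          sq_nonneg (prof0 M ρ ((e.1 : Site) - z + (1, 0)) - prof0 M ρ ((e.1 : Site) - z))]
    rw [hsq e he, hδ, show α ^ 2 * κ / M ^ 2 = α ^ 2 * (κ * (1 / M ^ 2)) by ring]
    refine mul_le_mul_of_nonneg_left ?_ (sq_nonneg α)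
    rcases hdisj e he with h' | h' <;> rw [h'] <;> simp only [ne_eq, OfNat.ofNat_ne_zero,
      not_false_eq_true, zero_pow, zero_add, add_zero] <;> exact one _
  rw [corrBox_eq_xy h.1 h.2]
  refine (abs_xyCorr_le (boxB R) hb hC0 _ _ a hgrad fun J hJ e he => mean_le_C hc J hJ he).trans
    (Real.exp_le_exp.2 (add_le_add (neg_le_neg ?_) ?_))
  · have hcent : ∀ z w : Site, (r : ℝ) ^ 2 = dist2 z w ^ 2 → p z z - p w z ≥
        Real.log r - Real.log (4 * M) := by
      intro z w hzw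
      have h0 : p w z = 0 := by
        refine prof0_eq_zero hρ ?_
        rw [dist2_sq z w] at hzw
        simp only [den, Prod.fst_sub, Prod.snd_sub, Int.cast_sub]
        nlinarith [sq_nonneg M]
      have h1 : Real.log r - Real.log (4 * M) ≤ p z z := by
        refine le_trans (le_of_eq ?_) (le_max_right _ _)
        rw [hρdef, Real.log_div (by positivity) (by norm_num), Real.log_mul (by norm_num) hM0.ne']
        simp only [den, sub_self, Prod.fst_zero, Prod.snd_zero, Int.cast_zero]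
        rw [show (0 : ℝ) ^ 2 + 0 ^ 2 + M ^ 2 = M ^ 2 by ring, Real.log_pow]
        push_cast; ring
      rw [h0]; linarith
    have h1 := hcent x y rfl
    have h2 := hcent y x (by rw [hr, dist2_sq, dist2_sq]; ring)
    simp only [ha]
    have := mul_le_mul_of_nonneg_left (add_le_add h1 h2) hα
    linarith
  · rw [← mul_sum]
    rw [← mul_assoc (C _ _)]
    refine mul_le_mul_of_nonneg_left ?_ (mul_nonneg hC0 (by positivity))
    rw [sum_congr rfl hsq, ← mul_sum, sum_add_distrib]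
    have hN0 : (0 : ℝ) < N := by linarith
    have hlog := mul_le_mul_of_nonneg_left (Real.log_le_log hN0 hNr)
      (show 0 ≤ 2 * Real.pi by positivity)
    have hfin : (1 + 2 / M) / (1 - 1 / M) ^ 2 * (2 * Real.pi * Real.log N + 20) ≤
        κ * (2 * Real.pi * Real.log r + 20) := by
      rw [← hκ]; exact mul_le_mul_of_nonneg_left (by linarith) hκ0
    have s1 := (prof0_sum_le hM hρ hNρ R x).trans hfin
    have s2 := (prof0_sum_le hM hρ hNρ R y).trans hfin
    refine (mul_le_mul_of_nonneg_left (add_le_add s1 s2) (sq_nonneg α)).trans_eq ?_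
    ring

lemma one_le_dist2 {x y : Site} (h : x ≠ y) : 1 ≤ dist2 x y := by
  refine Real.le_sqrt_of_sq_le ?_
  have h' : 1 ≤ (x.1 - y.1) ^ 2 + (x.2 - y.2) ^ 2 := by
    by_contra hlt
    push Not at hlt
    have h1 : x.1 - y.1 = 0 := sq_eq_zero_iff.1 (by nlinarith [sq_nonneg (x.1 - y.1), sq_nonneg (x.2 - y.2)])
    have h2 : x.2 - y.2 = 0 := sq_eq_zero_iff.1 (by nlinarith [sq_nonneg (x.1 - y.1), sq_nonneg (x.2 - y.2)])
    exact h (Prod.ext (sub_eq_zero.1 h1) (sub_eq_zero.1 h2))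
  rw [one_pow]
  exact_mod_cast h'

/-- The bound with the exponent of the nearest neighbour correlation. -/
theorem renormalised_bound {b b' : ℝ} (hb : 0 < b) (hb' : b < b') {η : ℝ}
    (hη : η * (2 * Real.pi * b * C b' 1) < 1) :
    ∃ K : ℝ, ∀ (R : ℕ) (x y : Site), x ≠ y → |corrBox R b x y| ≤ K * dist2 x y ^ (-η) := by
  by_cases hη0 : η ≤ 0
  · refine ⟨1, fun R x y hxy => ?_⟩
    rw [one_mul, abs_of_nonneg (corrBox_mem_Icc hb.le R x y).1]
    exact (corrBox_mem_Icc hb.le R x y).2.trans (Real.one_le_rpow (one_le_dist2 hxy) (by linarith))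
  push Not at hη0
  set κ : ℝ → ℝ := fun M => (1 + 2 / M) / (1 - 1 / M) ^ 2 with hκ
  set δ : ℝ → ℝ := fun M => η ^ 2 * κ M / M ^ 2 with hδ
  have tκ : Tendsto κ atTop (𝓝 1) := by
    have h1 : Tendsto (fun M : ℝ => 1 / M) atTop (𝓝 0) :=
      tendsto_const_nhds.div_atTop tendsto_id
    have h2 : Tendsto (fun M : ℝ => 2 / M) atTop (𝓝 0) :=
      tendsto_const_nhds.div_atTop tendsto_id
    have := ((tendsto_const_nhds (x := (1 : ℝ))).add h2).div
      (((tendsto_const_nhds (x := (1 : ℝ))).sub h1).pow 2) (by norm_num)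
    simpa [hκ, Pi.div_def] using this
  have tδ : Tendsto δ atTop (𝓝 0) :=
    ((tendsto_const_nhds (x := η ^ 2)).mul tκ).div_atTop (tendsto_pow_atTop two_ne_zero)
  have te : Tendsto (fun M => Real.exp (δ M / 2)) atTop (𝓝 1) := by
    simpa [Function.comp_def] using (Real.continuous_exp.tendsto (0 / 2)).comp (tδ.div_const 2)
  have hev : ∀ᶠ M : ℝ in atTop, 2 ≤ M ∧ b * Real.exp (δ M / 2) ≤ b' ∧
      η * (2 * Real.pi * b * C b' 1) * (Real.exp (δ M / 2) * κ M) ≤ 1 := by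
    refine (eventually_ge_atTop 2).and ((((tendsto_const_nhds (x := b)).mul te).eventually
      (eventually_le_nhds (by simpa using hb'))).and
      (((tendsto_const_nhds (x := η * (2 * Real.pi * b * C b' 1))).mul (te.mul tκ)).eventually
        (eventually_le_nhds (by simpa using hη))))
  obtain ⟨M, hM, hk, hsmall⟩ := hev.exists
  set k := Real.exp (δ M / 2) with hkdef
  have hbk : 0 ≤ b * k := by positivity
  have hb'0 : 0 ≤ b' := hb.le.trans hb'.le
  have hCle : C (b * k) 1 ≤ C b' 1 := by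
    rw [C_eq hbk, C_eq hb'0]
    exact Cinf_mono hbk hk _ _
  have hC0 : 0 ≤ C b' 1 := by rw [C_eq hb'0]; exact Cinf_nonneg hb'0 _ _
  set G₀ := C b' 1 * (b * k / 2) * (2 * η ^ 2 * κ M)
  refine ⟨max ((3 : ℝ) ^ η) (Real.exp (2 * η * Real.log (4 * M) + G₀ * 20)), fun R x y hxy => ?_⟩
  set r := dist2 x y with hr
  have hr1 : 1 ≤ r := one_le_dist2 hxy
  have hr0 : 0 < r := by linarith
  have hmem := corrBox_mem_Icc hb.le R x y
  rw [Real.rpow_neg hr0.le, ← div_eq_mul_inv, le_div_iff₀ (Real.rpow_pos_of_pos hr0 η)]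
  rcases lt_or_ge r 3 with hr3 | hr3
  · refine le_trans ?_ (le_max_left _ _)
    rw [abs_of_nonneg hmem.1]
    calc corrBox R b x y * r ^ η ≤ 1 * (3 : ℝ) ^ η :=
          mul_le_mul hmem.2 (Real.rpow_le_rpow hr0.le hr3.le hη0.le) (Real.rpow_nonneg hr0.le _)
            zero_le_one
      _ = _ := one_mul _
  · refine le_trans ?_ (le_max_right _ _)
    have h := corr_le_of_params hb.le hη0.le hM (δ := δ M) (κ := κ M) rfl rfl R (by rw [← hr]; exact hr3)
    rw [← hr, ← hkdef] at h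
    refine (mul_le_mul_of_nonneg_right h (Real.rpow_nonneg hr0.le _)).trans ?_
    rw [Real.rpow_def_of_pos hr0, ← Real.exp_add]
    refine Real.exp_le_exp.2 ?_
    have hlr : 0 ≤ Real.log r := Real.log_nonneg hr1
    have hκ0 : 0 ≤ κ M := by positivity
    have h1 : C (b * k) 1 * (b * k / 2) * (2 * η ^ 2 * κ M * (2 * Real.pi * Real.log r + 20)) ≤
        C b' 1 * (b * k / 2) * (2 * η ^ 2 * κ M * (2 * Real.pi * Real.log r + 20)) :=
      mul_le_mul_of_nonneg_right (mul_le_mul_of_nonneg_right hCle (by positivity)) (by positivity)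
    have h2 : η * (2 * Real.pi * b * C b' 1) * (k * κ M) * (η * Real.log r) ≤ η * Real.log r :=
      mul_le_of_le_one_left (mul_nonneg hη0.le hlr) hsmall
    simp only [G₀]
    linarith

/-- The bound for the infinite volume correlation. -/
theorem renormalised_bound_C {b b' : ℝ} (hb : 0 < b) (hb' : b < b') {η : ℝ}
    (hη : η * (2 * Real.pi * b * C b' 1) < 1) :
    ∃ K : ℝ, (∀ (R : ℕ) (x y : Site), x ≠ y → |corrBox R b x y| ≤ K * dist2 x y ^ (-η)) ∧
      ∀ r : ℕ, 1 ≤ r → C b r ≤ K * (r : ℝ) ^ (-η) := by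
  obtain ⟨K, hK⟩ := renormalised_bound hb hb' hη
  refine ⟨K, hK, fun r hr => ?_⟩
  rw [C_eq hb.le]
  refine ciSup_le fun R => ?_
  refine (le_abs_self _).trans ((hK R 0 ((r : ℤ), 0) (by simp [Prod.ext_iff]; omega)).trans
    (le_of_eq ?_))
  simp [dist2]

/-- An exponent strictly better than `1 / (2 π b)` at every temperature. -/
theorem strictly_renormalised {b : ℝ} (hb : 0 < b) :
    ∃ η : ℝ, 1 / (2 * Real.pi * b) < η ∧ ∃ K : ℝ, ∀ r : ℕ, 1 ≤ r → C b r ≤ K * (r : ℝ) ^ (-η) := by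
  have hb' : b < b + 1 := by linarith
  have hU : C (b + 1) 1 < 1 := (C_one_le_siteMag (by linarith)).trans_lt (siteMag_lt_one _)
  have hU0 : 0 < C (b + 1) 1 := C_pos (by linarith) 1
  have hden : 0 < 2 * Real.pi * b * C (b + 1) 1 := by positivity
  have hlt : 1 / (2 * Real.pi * b) < 1 / (2 * Real.pi * b * C (b + 1) 1) :=
    one_div_lt_one_div_of_lt hden (mul_lt_of_lt_one_right (by positivity) hU)
  obtain ⟨η, h1, h2⟩ := exists_between hlt
  obtain ⟨K, -, hK⟩ := renormalised_bound_C hb hb' (η := η) (by rwa [lt_div_iff₀ hden] at h2)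
  exact ⟨η, h1, K, hK⟩

end Vale.Agent.P159.MS
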