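import Vale.Agent.P159.Defs

/-!
The two quantities of the renormalised McBryan-Spencer bound.
-/

open MeasureTheory

namespace Vale.Agent.P159.MS

open Vale.Agent.P159

/-- The Euclidean distance in the square lattice. -/
noncomputable def dist2 (u v : Site) : ℝ :=
  Real.sqrt (((u.1 : ℝ) - v.1) ^ 2 + ((u.2 : ℝ) - v.2) ^ 2)

/-- The mean cosine of a single angle in a field of strength `s`, that is `I₁(s) / I₀(s)`. -/
noncomputable def siteMag (s : ℝ) : ℝ :=
  (∫ φ : Ang, cs φ * Real.exp (s * cs φ) ∂AddCircle.haarAddCircle) /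
    ∫ φ : Ang, Real.exp (s * cs φ) ∂AddCircle.haarAddCircle

end Vale.Agent.P159.MS
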