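import Vale.Agent.P159.MS.Shift

/-!
Edge energies are at most those of a single site, and so is the cost of stronger couplings.
-/

open MeasureTheory Real Finset

namespace Vale.Agent.P159.MS

open Vale.Agent.P159

variable {V : Type*} [Fintype V] (B : Finset (V × V))

omit [Fintype V] in
@[fun_prop]
lemma continuous_cw (J : V × V → ℝ) : Continuous (cw B J) := by
  unfold cw
  fun_prop

lemma integral_cw_pos (J : V × V → ℝ) : 0 < ∫ θ, cw B J θ ∂law V :=
  integral_exp_pos (integrable_cont (continuous_cw B J))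

/-- The mean energy of one bond. -/
theorem edge_mean_le {J : V × V → ℝ} (hJ : ∀ e ∈ B, 0 ≤ J e) {u v : V} (huv : u ≠ v)
    (hloop : ∀ e ∈ B, e.1 ≠ e.2) {S : ℝ} [DecidableEq V]
    (hS : ∑ e ∈ B.filter (fun e => e.1 = u ∨ e.2 = u), J e ≤ S) :
    ∫ θ, cs (θ u - θ v) * cw B J θ ∂law V ≤ siteMag S * ∫ θ, cw B J θ ∂law V := by
  set I := B.filter (fun e => e.1 = u ∨ e.2 = u) with hI
  have hcs : Continuous fun φ : Ang => (Pi.single u φ : V → Ang) :=
    continuous_single (A := fun _ : V => Ang) u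
  have hj : Continuous fun p : (V → Ang) × Ang => p.1 + (Pi.single u p.2 : V → Ang) :=
    continuous_fst.add (hcs.comp continuous_snd)
  have ctr : ∀ F : (V → Ang) → ℝ, Continuous F → ∫ θ, F θ ∂law V =
      ∫ θ, ∫ φ, F (θ + Pi.single u φ) ∂AddCircle.haarAddCircle ∂law V := by
    intro F hF
    rw [integral_integral_swap (f := fun (θ : V → Ang) (φ : Ang) => F (θ + (Pi.single u φ : V → Ang))) (integrable_cont (hF.comp hj))]
    simp only [integral_translate]
    simp
  rw [ctr _ (by fun_prop), ctr (cw B J) (continuous_cw B J), ← integral_const_mul]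
  have hin : ∀ {F : (V → Ang) → ℝ}, Continuous F → Integrable
      (fun θ => ∫ φ, F (θ + Pi.single u φ) ∂AddCircle.haarAddCircle) (law V) := by
    intro F hF
    exact (integrable_cont (μ := (law V).prod AddCircle.haarAddCircle)
      (f := fun p : (V → Ang) × Ang => F (p.1 + Pi.single u p.2))
      (hF.comp hj)).integral_prod_left
  refine integral_mono (hin (F := fun θ => cs (θ u - θ v) * cw B J θ) (by fun_prop)) ((hin (continuous_cw B J)).const_mul _) fun θ => ?_
  set β : V × V → Ang := fun e => if e.1 = u then θ e.1 - θ e.2 else -(θ e.1 - θ e.2) with hβ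
  set R := Real.exp (∑ e ∈ B.filter (fun e => ¬(e.1 = u ∨ e.2 = u)), J e * cs (θ e.1 - θ e.2))
  have hw : ∀ φ, cw B J (θ + Pi.single u φ) =
      R * Real.exp (∑ e ∈ I, J e * cs (φ + β e)) := by
    intro φ
    rw [cw, ← Real.exp_add, ← Finset.sum_filter_add_sum_filter_not B (fun e => e.1 = u ∨ e.2 = u),
      add_comm]
    congr 1
    congr 1
    · refine Finset.sum_congr rfl fun e he => ?_
      obtain ⟨-, hne⟩ := Finset.mem_filter.1 he
      rw [not_or] at hne
      simp [hne.1, hne.2]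
    · refine Finset.sum_congr rfl fun e he => ?_
      obtain ⟨heB, hor⟩ := Finset.mem_filter.1 he
      have hne := hloop e heB
      congr 1
      rcases hor with h | h
      · have h2 : e.2 ≠ u := fun h' => hne (h.trans h'.symm)
        simp only [hβ, if_pos h, Pi.add_apply, h, Pi.single_eq_same, Pi.single_eq_of_ne h2, add_zero]
        congr 1; abel
      · have h1 : e.1 ≠ u := fun h' => hne (h'.trans h.symm)
        rw [← angCos_neg]
        simp only [hβ, if_neg h1, Pi.add_apply, h, Pi.single_eq_same, Pi.single_eq_of_ne h1, add_zero]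
        congr 1; abel
  have hd : ∀ φ : Ang, (θ + (Pi.single u φ : V → Ang)) u - (θ + (Pi.single u φ : V → Ang)) v = φ + (θ u - θ v) := fun φ => by
    simp [Pi.single_eq_of_ne huv.symm]; abel
  simp only [hw, hd, mul_left_comm _ R, integral_const_mul]
  exact mul_le_mul_of_nonneg_left
    (site_bound I J (fun e he => hJ e (Finset.mem_filter.1 he).1) β hS _) (Real.exp_pos _).le

/-- Stronger couplings raise the partition function at most by the energy of their bonds. -/
theorem cw_le {J J' : V × V → ℝ} (hle : ∀ e ∈ B, J e ≤ J' e) {U : ℝ}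
    (hU : ∀ e ∈ B, ∫ θ, cs (θ e.1 - θ e.2) * cw B J' θ ∂law V ≤ U * ∫ θ, cw B J' θ ∂law V) :
    ∫ θ, cw B J' θ ∂law V ≤
      Real.exp (U * ∑ e ∈ B, (J' e - J e)) * ∫ θ, cw B J θ ∂law V := by
  set m := U * ∑ e ∈ B, (J' e - J e) with hm
  set f : (V → Ang) → ℝ := fun θ => ∑ e ∈ B, (J' e - J e) * cs (θ e.1 - θ e.2) with hf
  have hfc : Continuous f := by fun_prop
  have hfm : ∫ θ, f θ * cw B J' θ ∂law V ≤ m * ∫ θ, cw B J' θ ∂law V := by
    simp only [hf, Finset.sum_mul, mul_assoc]
    rw [integral_finsetSum _ fun e _ => integrable_cont (by fun_prop), hm, Finset.mul_sum,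
      Finset.sum_mul]
    refine Finset.sum_le_sum fun e he => ?_
    rw [integral_const_mul, mul_comm U, mul_assoc]
    exact mul_le_mul_of_nonneg_left
      (hU e he) (sub_nonneg.2 (hle e he))
  have hpt : ∀ θ, Real.exp (-m) * ((1 + m) * cw B J' θ - f θ * cw B J' θ) ≤ cw B J θ := by
    intro θ
    have e : cw B J θ = cw B J' θ * Real.exp (-f θ) := by
      simp only [cw, hf, ← Real.exp_add, ← Finset.sum_neg_distrib, ← Finset.sum_add_distrib]
      congr 1
      exact Finset.sum_congr rfl fun e _ => by ring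
    have h1 := mul_le_mul_of_nonneg_left (Real.add_one_le_exp (m - f θ))
      (mul_nonneg (Real.exp_pos (-m)).le (Real.exp_pos (∑ e ∈ B, J' e * cs (θ e.1 - θ e.2))).le)
    rw [e, show -f θ = -m + (m - f θ) by ring, Real.exp_add]
    unfold cw
    linarith
  have i1 : Integrable (fun θ => (1 + m) * cw B J' θ) (law V) := integrable_cont (by fun_prop)
  have i2 : Integrable (fun θ => f θ * cw B J' θ) (law V) := integrable_cont (by fun_prop)
  have hi := integral_mono ((i1.sub i2).const_mul (Real.exp (-m)))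
    (integrable_cont (continuous_cw B J)) hpt
  simp only [Pi.sub_apply] at hi
  rw [integral_const_mul, integral_sub i1 i2, integral_const_mul] at hi
  have h2 : Real.exp (-m) * ∫ θ, cw B J' θ ∂law V ≤ ∫ θ, cw B J θ ∂law V :=
    le_trans (mul_le_mul_of_nonneg_left (by linarith) (Real.exp_pos _).le) hi
  rw [Real.exp_neg, inv_mul_le_iff₀ (Real.exp_pos _)] at h2
  exact h2

lemma cosh_sub_one_le {d δ : ℝ} (hd : d ^ 2 ≤ δ) :
    Real.cosh d - 1 ≤ d ^ 2 / 2 * Real.exp (δ / 2) := by
  have h0 := Real.cosh_le_exp_half_sq d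
  have h1 := Real.add_one_le_exp (-(d ^ 2 / 2))
  rw [Real.exp_neg] at h1
  have hp := Real.exp_pos (d ^ 2 / 2)
  have h2 : Real.exp (d ^ 2 / 2) - 1 ≤ d ^ 2 / 2 * Real.exp (d ^ 2 / 2) := by
    have := mul_le_mul_of_nonneg_left h1 hp.le
    rw [mul_inv_cancel₀ hp.ne'] at this
    linarith
  have h3 : d ^ 2 / 2 * Real.exp (d ^ 2 / 2) ≤ d ^ 2 / 2 * Real.exp (δ / 2) :=
    mul_le_mul_of_nonneg_left (Real.exp_le_exp.2 (by linarith)) (by positivity)
  linarith

/-- The bound from an imaginary rotation of small gradient. -/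
theorem abs_xyCorr_le {b δ U : ℝ} (hb : 0 ≤ b) (hU0 : 0 ≤ U) (x y : V) (a : V → ℝ)
    (ha : ∀ e ∈ B, (a e.1 - a e.2) ^ 2 ≤ δ)
    (hU : ∀ J : V × V → ℝ, (∀ e ∈ B, 0 ≤ J e ∧ J e ≤ b * Real.exp (δ / 2)) → ∀ e ∈ B,
      ∫ θ, cs (θ e.1 - θ e.2) * cw B J θ ∂law V ≤ U * ∫ θ, cw B J θ ∂law V) :
    |xyCorr B b x y| ≤ Real.exp (-(a x - a y) +
      U * ∑ e ∈ B, b * Real.exp (δ / 2) / 2 * (a e.1 - a e.2) ^ 2) := by
  set J' : V × V → ℝ := fun e => b * Real.cosh (a e.1 - a e.2)
  have hJ' : ∀ e ∈ B, 0 ≤ J' e ∧ J' e ≤ b * Real.exp (δ / 2) := fun e he =>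
    ⟨mul_nonneg hb (Real.cosh_pos _).le, mul_le_mul_of_nonneg_left
      ((Real.cosh_le_exp_half_sq _).trans (Real.exp_le_exp.2 (by linarith [ha e he]))) hb⟩
  have hw : ∀ θ, xyWeight B b θ = cw B (fun _ => b) θ := fun θ => by
    simp [xyWeight, cw, Finset.mul_sum]
  have hZ := integral_cw_pos B (fun _ : V × V => b)
  rw [xyCorr, abs_div, show ∫ θ, xyWeight B b θ ∂law V = ∫ θ, cw B (fun _ => b) θ ∂law V by
    simp only [hw], abs_of_pos hZ, div_le_iff₀ hZ, Real.exp_add, mul_assoc]
  refine (abs_num_le B b x y a).trans (mul_le_mul_of_nonneg_left ?_ (Real.exp_pos _).le)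
  refine (cw_le B (J := fun _ => b) (fun e _ => le_mul_of_one_le_right hb (Real.one_le_cosh _))
    (hU J' hJ')).trans (mul_le_mul_of_nonneg_right (Real.exp_le_exp.2 ?_) hZ.le)
  refine mul_le_mul_of_nonneg_left (Finset.sum_le_sum fun e he => ?_) hU0
  have := mul_le_mul_of_nonneg_left (cosh_sub_one_le (ha e he)) hb
  linarith

end Vale.Agent.P159.MS
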