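import Vale.Agent.P159.MS.Site

/-!
Imaginary rotations of all angles, and the energy of a strengthened coupling.
-/

open MeasureTheory Real Finset Complex

namespace Vale.Agent.P159.MS

open Vale.Agent.P159

variable {V : Type*} [Fintype V]

instance : IsProbabilityMeasure (law V) := by unfold law; infer_instance

lemma integral_translate {E : Type*} [NormedAddCommGroup E] [NormedSpace ℝ E]
    (a : V → Ang) (F : (V → Ang) → E) :
    ∫ θ, F (θ + a) ∂law V = ∫ θ, F θ ∂law V := by
  have h : MeasurePreserving (fun θ : V → Ang => θ + a) (law V) (law V) :=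
    measurePreserving_pi _ _ fun v => measurePreserving_add_right _ (a v)
  have hemb : MeasurableEmbedding (fun θ : V → Ang => θ + a) :=
    (Homeomorph.addRight a).measurableEmbedding
  exact h.integral_comp hemb F

variable (B : Finset (V × V))

/-- The Boltzmann weight at inverse temperature `b`. -/
noncomputable def xyWeight (b : ℝ) (θ : V → Ang) : ℝ :=
  Real.exp (b * ∑ e ∈ B, cs (θ e.1 - θ e.2))

/-- The correlation of two angles. -/
noncomputable def xyCorr (b : ℝ) (x y : V) : ℝ :=
  (∫ θ, cs (θ x - θ y) * xyWeight B b θ ∂law V) / ∫ θ, xyWeight B b θ ∂law V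

/-- The weight of a system of couplings. -/
noncomputable def cw (J : V × V → ℝ) (θ : V → Ang) : ℝ :=
  Real.exp (∑ e ∈ B, J e * cs (θ e.1 - θ e.2))

/-- The cosine of an angle moved by a complex amount. -/
noncomputable def ccos (φ : Ang) (w : ℂ) : ℂ :=
  (cs φ : ℂ) * Complex.cos w - (angSin φ : ℂ) * Complex.sin w

/-- The complex exponential of an angle moved by a complex amount. -/
noncomputable def cexpA (φ : Ang) (w : ℂ) : ℂ :=
  ((cs φ : ℂ) + (angSin φ : ℂ) * I) * Complex.exp (I * w)

@[fun_prop]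
lemma continuous_ofReal_angCos : Continuous fun φ : Ang => (cs φ : ℂ) :=
  Complex.continuous_ofReal.comp continuous_angCos

@[fun_prop]
lemma continuous_ofReal_angSin : Continuous fun φ : Ang => (angSin φ : ℂ) :=
  Complex.continuous_ofReal.comp continuous_angSin

lemma ccos_add (φ : Ang) (t : ℝ) (w : ℂ) : ccos (φ + (t : Ang)) w = ccos φ ((t : ℂ) + w) := by
  simp only [ccos, angCos_add, angSin_add, angCos_coe, angSin_coe, Complex.cos_add, Complex.sin_add]
  push_cast
  ring

lemma cexpA_add (φ : Ang) (t : ℝ) (w : ℂ) : cexpA (φ + (t : Ang)) w = cexpA φ ((t : ℂ) + w) := by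
  simp only [cexpA, angCos_add, angSin_add, angCos_coe, angSin_coe, mul_add I, Complex.exp_add,
    mul_comm I (t : ℂ), Complex.exp_mul_I]
  push_cast
  linear_combination
    (-((angSin φ : ℂ) * Complex.sin (t : ℂ) * Complex.exp (I * w))) * Complex.I_mul_I

variable (b : ℝ) (x y : V) (a : V → ℝ)

/-- The numerator after rotating every angle by a multiple `z` of `a`. -/
noncomputable def rotF (z : ℂ) (θ : V → Ang) : ℂ :=
  cexpA (θ x - θ y) (z * (a x - a y : ℝ)) *
    Complex.exp (∑ e ∈ B, (b : ℂ) * ccos (θ e.1 - θ e.2) (z * (a e.1 - a e.2 : ℝ)))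

/-- Its derivative in `z`. -/
noncomputable def rotF' (z : ℂ) (θ : V → Ang) : ℂ :=
  rotF B b x y a z θ * (I * (a x - a y : ℝ) + ∑ e ∈ B, (b : ℂ) *
    ((a e.1 - a e.2 : ℝ) * (-(cs (θ e.1 - θ e.2) : ℂ) *
      Complex.sin (z * (a e.1 - a e.2 : ℝ)) -
      (angSin (θ e.1 - θ e.2) : ℂ) * Complex.cos (z * (a e.1 - a e.2 : ℝ)))))

omit [Fintype V] in
lemma continuous_rotF : Continuous fun p : ℂ × (V → Ang) => rotF B b x y a p.1 p.2 := by
  unfold rotF cexpA ccos
  fun_prop

omit [Fintype V] in
lemma continuous_rotF' : Continuous fun p : ℂ × (V → Ang) => rotF' B b x y a p.1 p.2 := by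
  unfold rotF' rotF cexpA ccos
  fun_prop

omit [Fintype V] in
lemma continuous_slice (z : ℂ) : Continuous (rotF B b x y a z) := by
  unfold rotF cexpA ccos
  fun_prop

omit [Fintype V] in
lemma continuous_slice' (z : ℂ) : Continuous (rotF' B b x y a z) := by
  unfold rotF' rotF cexpA ccos
  fun_prop

omit [Fintype V] in
lemma hasDerivAt_rotF (θ : V → Ang) (z : ℂ) :
    HasDerivAt (fun w => rotF B b x y a w θ) (rotF' B b x y a z θ) z := by
  have hm : ∀ d : ℂ, HasDerivAt (fun w : ℂ => w * d) d z := fun d => hasDerivAt_mul_const d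
  have h1 := ((((hm ((a x - a y : ℝ) : ℂ)).const_mul I).cexp).const_mul
    ((cs (θ x - θ y) : ℂ) + (angSin (θ x - θ y) : ℂ) * I))
  have h2 := (HasDerivAt.fun_sum (u := B) fun e _ => (((hm ((a e.1 - a e.2 : ℝ) : ℂ)).ccos.const_mul
    (cs (θ e.1 - θ e.2) : ℂ)).fun_sub ((hm ((a e.1 - a e.2 : ℝ) : ℂ)).csin.const_mul
    (angSin (θ e.1 - θ e.2) : ℂ))).const_mul (b : ℂ)).cexp
  refine (h1.fun_mul h2).congr_deriv ?_
  simp only [rotF', rotF, cexpA, ccos]
  rw [mul_add (_ * Complex.exp _)]
  congr 1
  · ring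
  · simp only [Finset.mul_sum]
    exact Finset.sum_congr rfl fun e _ => by ring

/-- The integral of the rotated numerator. -/
noncomputable def rotH (z : ℂ) : ℂ := ∫ θ, rotF B b x y a z θ ∂law V

lemma rotH_add_real (z : ℂ) (s : ℝ) : rotH B b x y a (z + s) = rotH B b x y a z := by
  unfold rotH
  rw [← integral_translate (fun v => ((s * a v : ℝ) : Ang)) (rotF B b x y a z)]
  refine integral_congr_ae (Filter.Eventually.of_forall fun θ => ?_)
  have e : ∀ u v : V, θ u + ((s * a u : ℝ) : Ang) - (θ v + ((s * a v : ℝ) : Ang)) =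
      θ u - θ v + ((s * (a u - a v) : ℝ) : Ang) := fun u v => by
    rw [mul_sub, AddCircle.coe_sub]; abel
  simp only [rotF, Pi.add_apply, e, ccos_add, cexpA_add]
  push_cast
  have ez : ∀ d : ℂ, (z + s) * d = s * d + z * d := fun d => by ring
  simp only [ez]

lemma rotH_const (z : ℂ) : rotH B b x y a z = rotH B b x y a 0 := by
  have hder : ∀ z, HasDerivAt (rotH B b x y a) (∫ θ, rotF' B b x y a z θ ∂law V) z := by
    intro z
    obtain ⟨C, hC⟩ := ((isCompact_closedBall z 1).prod
      (isCompact_univ (X := V → Ang))).exists_bound_of_continuousOn (E := ℂ)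
        (f := fun p : ℂ × (V → Ang) => rotF' B b x y a p.1 p.2)
        (continuous_rotF' B b x y a).continuousOn
    refine (hasDerivAt_integral_of_dominated_loc_of_deriv_le (μ := law V) (x₀ := z)
      (F := fun w θ => rotF B b x y a w θ) (F' := fun w θ => rotF' B b x y a w θ)
      (s := Metric.closedBall z 1) (bound := fun _ => C) (Metric.closedBall_mem_nhds z one_pos)
      (Filter.Eventually.of_forall fun w => ?_) ?_ ?_
      (Filter.Eventually.of_forall fun θ w hw => hC (w, θ) ⟨hw, Set.mem_univ _⟩)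
      (integrable_const _)
      (Filter.Eventually.of_forall fun θ w _ => hasDerivAt_rotF B b x y a θ w)).2
    · exact (continuous_slice B b x y a w).aestronglyMeasurable
    · exact integrable_cont (continuous_slice B b x y a z)
    · exact (continuous_slice' B b x y a z).aestronglyMeasurable
  have hzero : ∀ z, HasDerivAt (rotH B b x y a) 0 z := by
    intro z
    have h := hder z
    have h1 : HasDerivAt (fun t : ℝ => rotH B b x y a (z + t))
        (∫ θ, rotF' B b x y a z θ ∂law V) 0 := by
      have hin : HasDerivAt (fun t : ℝ => z + (t : ℂ)) 1 0 :=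
        ((hasDerivAt_id (0 : ℝ)).ofReal_comp).const_add z
      have := HasDerivAt.comp (0 : ℝ) (by simpa using h : HasDerivAt (rotH B b x y a)
        (∫ θ, rotF' B b x y a z θ ∂law V) ((fun t : ℝ => z + (t : ℂ)) 0)) hin
      simpa [Function.comp_def] using this
    simp only [rotH_add_real] at h1
    rwa [h1.unique (hasDerivAt_const _ _)] at h
  exact is_const_of_deriv_eq_zero (fun z => (hzero z).differentiableAt) (fun z => (hzero z).deriv) z 0

/-- The bound by strengthened couplings. -/
lemma abs_num_le :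
    |∫ θ, cs (θ x - θ y) * xyWeight B b θ ∂law V| ≤
      Real.exp (-(a x - a y)) *
        ∫ θ, cw B (fun e => b * Real.cosh (a e.1 - a e.2)) θ ∂law V := by
  have h0 : (rotH B b x y a 0).re = ∫ θ, cs (θ x - θ y) * xyWeight B b θ ∂law V := by
    rw [rotH, ← Complex.reCLM_apply, ← Complex.reCLM.integral_comp_comm (integrable_cont
      (continuous_slice B b x y a 0))]
    refine integral_congr_ae (Filter.Eventually.of_forall fun θ => ?_)
    have es : (∑ e ∈ B, (b : ℂ) * ccos (θ e.1 - θ e.2) (0 * ((a e.1 - a e.2 : ℝ) : ℂ))) =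
        ((b * ∑ e ∈ B, cs (θ e.1 - θ e.2) : ℝ) : ℂ) := by
      simp [ccos, Finset.mul_sum]
    simp only [Complex.reCLM_apply, rotF, es, ← Complex.ofReal_exp, xyWeight]
    rw [Complex.re_mul_ofReal]
    congr 1
    simp [cexpA]
  rw [← h0, ← rotH_const B b x y a I, ← Real.norm_eq_abs]
  refine (Complex.abs_re_le_norm _).trans ?_
  rw [rotH, ← integral_const_mul]
  refine norm_integral_le_of_norm_le ((integrable_cont (by unfold cw; fun_prop)).const_mul _)
    (Filter.Eventually.of_forall fun θ => le_of_eq ?_)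
  have n1 : ‖cexpA (θ x - θ y) (I * ((a x - a y : ℝ) : ℂ))‖ = Real.exp (-(a x - a y)) := by
    rw [cexpA, norm_mul, Complex.norm_add_mul_I, angCos_sq_add, Real.sqrt_one, one_mul,
      Complex.norm_exp]
    simp
  rw [rotF, norm_mul, n1, Complex.norm_exp, Complex.re_sum, cw]
  congr 2
  refine Finset.sum_congr rfl fun e _ => ?_
  rw [ccos, mul_comm I, Complex.cos_mul_I, Complex.sin_mul_I, ← Complex.ofReal_cosh,
    ← Complex.ofReal_sinh]
  simp
  rw [← Complex.ofReal_sub, Complex.cosh_ofReal_re, Complex.sinh_ofReal_im]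
  ring

end Vale.Agent.P159.MS
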