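import Vale.Agent.P159.MS.Defs

/-!
One angle in a field.
-/

open MeasureTheory Real Finset

namespace Vale.Agent.P159.MS

open Vale.Agent.P159

/-- The sine of an angle. -/
noncomputable def angSin (φ : Ang) : ℝ := Real.Angle.sin φ

lemma angCos_add (ψ φ : Ang) :
    cs (ψ + φ) = cs ψ * cs φ - angSin ψ * angSin φ :=
  Real.Angle.cos_add ψ φ

lemma angSin_add (ψ φ : Ang) :
    angSin (ψ + φ) = angSin ψ * cs φ + cs ψ * angSin φ :=
  Real.Angle.sin_add ψ φ

lemma angCos_neg (φ : Ang) : cs (-φ) = cs φ := Real.Angle.cos_neg φ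

lemma angSin_neg (φ : Ang) : angSin (-φ) = -angSin φ := Real.Angle.sin_neg φ

lemma angCos_sq_add (φ : Ang) : cs φ ^ 2 + angSin φ ^ 2 = 1 :=
  Real.Angle.cos_sq_add_sin_sq φ

lemma abs_angCos_le (φ : Ang) : |cs φ| ≤ 1 :=
  abs_le_one_iff_mul_self_le_one.2 (by nlinarith [angCos_sq_add φ, sq_nonneg (angSin φ)])

lemma abs_angSin_le (φ : Ang) : |angSin φ| ≤ 1 :=
  abs_le_one_iff_mul_self_le_one.2 (by nlinarith [angCos_sq_add φ, sq_nonneg (cs φ)])

lemma angCos_coe (t : ℝ) : cs (t : Ang) = Real.cos t := Real.Angle.cos_coe t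

lemma angSin_coe (t : ℝ) : angSin (t : Ang) = Real.sin t := Real.Angle.sin_coe t

@[fun_prop]
lemma continuous_angCos : Continuous cs := Real.Angle.continuous_cos

@[fun_prop]
lemma continuous_angSin : Continuous angSin := Real.Angle.continuous_sin

/-- Continuous functions on a compact probability space are integrable. -/
lemma integrable_cont {α : Type*} [TopologicalSpace α] [CompactSpace α] [MeasurableSpace α]
    [OpensMeasurableSpace α] {μ : Measure α} [IsFiniteMeasure μ] {E : Type*}
    [NormedAddCommGroup E] [SecondCountableTopologyEither α E] {f : α → E} (hf : Continuous f) :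
    Integrable f μ :=
  hf.integrable_of_hasCompactSupport (HasCompactSupport.of_compactSpace f)

/-- The single site normalisation. -/
noncomputable def siteZ (s : ℝ) : ℝ :=
  ∫ φ : Ang, Real.exp (s * cs φ) ∂AddCircle.haarAddCircle

/-- The single site numerator. -/
noncomputable def siteN (s : ℝ) : ℝ :=
  ∫ φ : Ang, cs φ * Real.exp (s * cs φ) ∂AddCircle.haarAddCircle

lemma siteMag_eq (s : ℝ) : siteMag s = siteN s / siteZ s := rfl

lemma siteZ_pos (s : ℝ) : 0 < siteZ s :=
  integral_exp_pos (integrable_cont (by fun_prop))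

lemma siteMag_mono {s t : ℝ} (h : s ≤ t) : siteMag s ≤ siteMag t := by
  rw [siteMag_eq, siteMag_eq, div_le_div_iff₀ (siteZ_pos s) (siteZ_pos t)]
  set μ := (AddCircle.haarAddCircle : Measure Ang)
  have key : 0 ≤ ∫ p : Ang × Ang, (cs p.1 - cs p.2) *
      (Real.exp (t * cs p.1) * Real.exp (s * cs p.2) -
        Real.exp (s * cs p.1) * Real.exp (t * cs p.2)) ∂μ.prod μ := by
    refine integral_nonneg fun p => ?_
    simp only [Pi.zero_apply, ← Real.exp_add]
    rcases le_total (cs p.2) (cs p.1) with hc | hc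
    · exact mul_nonneg (sub_nonneg.2 hc) (sub_nonneg.2 (Real.exp_le_exp.2 (by
        nlinarith [mul_nonneg (sub_nonneg.2 h) (sub_nonneg.2 hc)])))
    · exact mul_nonneg_of_nonpos_of_nonpos (sub_nonpos.2 hc) (sub_nonpos.2 (Real.exp_le_exp.2 (by
        nlinarith [mul_nonneg (sub_nonneg.2 h) (sub_nonneg.2 hc)])))
  have e : ∀ p : Ang × Ang, (cs p.1 - cs p.2) *
      (Real.exp (t * cs p.1) * Real.exp (s * cs p.2) -
        Real.exp (s * cs p.1) * Real.exp (t * cs p.2)) =
      cs p.1 * Real.exp (t * cs p.1) * Real.exp (s * cs p.2) +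
        Real.exp (s * cs p.1) * (cs p.2 * Real.exp (t * cs p.2)) -
      (cs p.1 * Real.exp (s * cs p.1) * Real.exp (t * cs p.2) +
        Real.exp (t * cs p.1) * (cs p.2 * Real.exp (s * cs p.2))) := fun p => by ring
  simp only [e] at key
  rw [integral_sub (integrable_cont (by fun_prop)) (integrable_cont (by fun_prop)),
    integral_add (integrable_cont (by fun_prop)) (integrable_cont (by fun_prop)),
    integral_add (integrable_cont (by fun_prop)) (integrable_cont (by fun_prop)),
    integral_prod_mul (fun a => cs a * Real.exp (t * cs a)) (fun a => Real.exp (s * cs a)),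
    integral_prod_mul (fun a => Real.exp (s * cs a)) (fun a => cs a * Real.exp (t * cs a)),
    integral_prod_mul (fun a => cs a * Real.exp (s * cs a)) (fun a => Real.exp (t * cs a)),
    integral_prod_mul (fun a => Real.exp (t * cs a)) (fun a => cs a * Real.exp (s * cs a))]
    at key
  simp only [siteN, siteZ]
  linarith

lemma siteMag_zero : siteMag 0 = 0 := by
  have h : ∫ φ : Ang, cs φ ∂AddCircle.haarAddCircle = 0 := by
    have e := integral_add_right_eq_self (μ := (AddCircle.haarAddCircle : Measure Ang)) cs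
      ((Real.pi : ℝ) : Ang)
    have hs : ∀ φ : Ang, cs (φ + ((Real.pi : ℝ) : Ang)) = -cs φ := fun φ => by
      simp [angCos_add, angCos_coe, angSin_coe]
    simp only [hs, integral_neg] at e
    linarith
  simp [siteMag, h]

lemma siteMag_nonneg {s : ℝ} (hs : 0 ≤ s) : 0 ≤ siteMag s := by
  simpa [siteMag_zero] using siteMag_mono hs

lemma siteMag_lt_one (s : ℝ) : siteMag s < 1 := by
  rw [siteMag_eq, div_lt_one (siteZ_pos s), ← sub_pos, siteZ, siteN,
    ← integral_sub (integrable_cont (by fun_prop)) (integrable_cont (by fun_prop))]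
  refine Continuous.integral_pos_of_hasCompactSupport_nonneg_nonzero (x := ((Real.pi : ℝ) : Ang))
    (by fun_prop) (HasCompactSupport.of_compactSpace _) (fun φ => ?_) ?_
  · exact sub_nonneg.2 (mul_le_of_le_one_left (Real.exp_pos _).le (abs_le.1 (abs_angCos_le φ)).2)
  · rw [angCos_coe, Real.cos_pi]
    have := Real.exp_pos (s * -1)
    intro h
    linarith

lemma continuous_siteMag : Continuous siteMag := by
  have hz : Continuous siteZ := by
    have := continuous_parametric_integral_of_continuous
      (μ := (AddCircle.haarAddCircle : Measure Ang))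
      (f := fun (s : ℝ) (φ : Ang) => Real.exp (s * cs φ)) (s := Set.univ)
      (by fun_prop) isCompact_univ
    simp only [Measure.restrict_univ] at this
    exact this
  have hn : Continuous siteN := by
    have := continuous_parametric_integral_of_continuous
      (μ := (AddCircle.haarAddCircle : Measure Ang))
      (f := fun (s : ℝ) (φ : Ang) => cs φ * Real.exp (s * cs φ)) (s := Set.univ)
      (by fun_prop) isCompact_univ
    simp only [Measure.restrict_univ] at this
    exact this
  exact hn.div₀ hz fun s => (siteZ_pos s).ne'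

lemma integral_sin_exp (s : ℝ) :
    ∫ φ : Ang, angSin φ * Real.exp (s * cs φ) ∂AddCircle.haarAddCircle = 0 := by
  have e := integral_neg_eq_self (fun φ : Ang => angSin φ * Real.exp (s * cs φ))
    (AddCircle.haarAddCircle : Measure Ang)
  simp only [angCos_neg, angSin_neg, neg_mul, integral_neg] at e
  linarith

/-- The mean of a cosine in a field given by a sum of cosines. -/
lemma site_bound {ι : Type*} (I : Finset ι) (c : ι → ℝ) (hc : ∀ i ∈ I, 0 ≤ c i) (β : ι → Ang)
    {S : ℝ} (hS : ∑ i ∈ I, c i ≤ S) (α : Ang) :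
    ∫ φ : Ang, cs (φ + α) * Real.exp (∑ i ∈ I, c i * cs (φ + β i))
        ∂AddCircle.haarAddCircle ≤
      siteMag S * ∫ φ : Ang, Real.exp (∑ i ∈ I, c i * cs (φ + β i))
        ∂AddCircle.haarAddCircle := by
  set h : ℂ := ∑ i ∈ I, (c i : ℂ) * ((cs (β i) : ℂ) + (angSin (β i) : ℂ) * Complex.I) with hh
  set ψ : Ang := ((Complex.arg h : ℝ) : Ang)
  set r := ‖h‖ with hr
  have hre : h.re = ∑ i ∈ I, c i * cs (β i) := by simp [hh, Complex.re_sum]
  have him : h.im = ∑ i ∈ I, c i * angSin (β i) := by simp [hh, Complex.im_sum]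
  have hH : ∀ φ, ∑ i ∈ I, c i * cs (φ + β i) = r * cs (φ + ψ) := by
    intro φ
    simp only [angCos_add φ, mul_sub, Finset.sum_sub_distrib, ψ, angCos_coe, angSin_coe]
    rw [mul_left_comm r, mul_left_comm r, hr, Complex.norm_mul_cos_arg, Complex.norm_mul_sin_arg,
      hre, him, Finset.mul_sum, Finset.mul_sum]
    congr 1 <;> exact Finset.sum_congr rfl fun i _ => by ring
  have hrS : r ≤ S := by
    refine ((norm_sum_le _ _).trans (Finset.sum_le_sum fun i hi => ?_)).trans hS
    rw [norm_mul, Complex.norm_real, Real.norm_eq_abs, abs_of_nonneg (hc i hi),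
      Complex.norm_add_mul_I, angCos_sq_add, Real.sqrt_one, mul_one]
  simp only [hH]
  rw [← integral_add_right_eq_self (fun φ : Ang => cs (φ + α) * Real.exp (r * cs (φ + ψ)))
      (-ψ), ← integral_add_right_eq_self (fun φ : Ang => Real.exp (r * cs (φ + ψ))) (-ψ)]
  simp only [neg_add_cancel_right]
  have e : ∀ φ : Ang, cs (φ + -ψ + α) * Real.exp (r * cs φ) =
      cs (-ψ + α) * (cs φ * Real.exp (r * cs φ)) -
        angSin (-ψ + α) * (angSin φ * Real.exp (r * cs φ)) := fun φ => by
    rw [add_assoc, angCos_add]; ring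
  simp only [e]
  rw [integral_sub (integrable_cont (by fun_prop)) (integrable_cont (by fun_prop)),
    integral_const_mul, integral_const_mul, integral_sin_exp, mul_zero, sub_zero]
  have hN : siteN r = siteMag r * siteZ r := by
    rw [siteMag_eq, div_mul_cancel₀ _ (siteZ_pos r).ne']
  change cs (-ψ + α) * siteN r ≤ siteMag S * siteZ r
  calc cs (-ψ + α) * siteN r ≤ 1 * siteN r :=
        mul_le_mul_of_nonneg_right (abs_le.1 (abs_angCos_le _)).2
          (by rw [hN]; exact mul_nonneg (siteMag_nonneg (norm_nonneg _)) (siteZ_pos r).le)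
    _ ≤ siteMag S * siteZ r := by
        rw [one_mul, hN]
        exact mul_le_mul_of_nonneg_right (siteMag_mono hrS) (siteZ_pos r).le

end Vale.Agent.P159.MS
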